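import Vale.Agent.P080.Liouville

open scoped RealInnerProductSpace

namespace Vale.Agent.Results.P080.BoundedPerturbation

open Vale.Agent.P080

theorem result : ∀ (d : ℕ) (u : EuclideanSpace ℝ (Fin d) → ℝ),
    IsInfHarmonicOn u Set.univ →
    ∀ (p : EuclideanSpace ℝ (Fin d)) (M : ℝ), (∀ x, |u x - ⟪p, x⟫| ≤ M) →
      ∃ c : ℝ, ∀ x, u x = ⟪p, x⟫ + c :=
  fun _ _ hu _ _ hM => liouville hu hM

end Vale.Agent.Results.P080.BoundedPerturbation
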